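import Mathlib

/-! Internal interface of the perturbation theorem for semifinite von Neumann algebras. -/

set_option linter.unusedSectionVars false

namespace Vale.Agent.P096

open Filter Topology
open scoped InnerProductSpace

universe u

abbrev Op (H : Type u) [NormedAddCommGroup H] [InnerProductSpace ℂ H] : Type u := H →L[ℂ] H

abbrev Alg (H : Type u) [NormedAddCommGroup H] [InnerProductSpace ℂ H] [CompleteSpace H] :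
    Type u := StarSubalgebra ℂ (H →L[ℂ] H)

section Defs

variable {H : Type u} [NormedAddCommGroup H] [InnerProductSpace ℂ H] [CompleteSpace H]

/-- `A` and `B` are the commutants of each other. -/
structure CP (A B : Alg H) : Prop where
  left : ∀ x, x ∈ A ↔ ∀ y ∈ B, x * y = y * x
  right : ∀ y, y ∈ B ↔ ∀ x ∈ A, y * x = x * y

theorem CP.symm {A B : Alg H} (h : CP A B) : CP B A := ⟨h.right, h.left⟩

/-- Near inclusion. -/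
def Near (A B : Alg H) (δ : ℝ) : Prop := ∀ x ∈ A, ∃ y ∈ B, ‖x - y‖ ≤ δ * ‖x‖

def Close (A B : Alg H) (δ : ℝ) : Prop := Near A B δ ∧ Near B A δ

/-- Elements of the corner `g A g`. -/
structure Cor (A : Alg H) (g a : Op H) : Prop where
  mem : a ∈ A
  left : g * a = a
  right : a * g = a

/-- One half of the data of a local trace vector. -/
structure Half (A B : Alg H) (ξ : H) (g r : Op H) : Prop where
  proj : IsStarProjection g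
  mem : g ∈ A
  fix : g ξ = ξ
  cyc : ∀ η, g η ∈ closure {ζ | ∃ c ∈ B, ζ = c ξ}
  part : ∀ a, Cor A g a → ∃ c, Cor B r c ∧ ‖c‖ ≤ ‖a‖ ∧ c ξ = a ξ ∧ star c ξ = star a ξ

/-- `ξ` is a trace vector for the corners `g A g` and `r B r`. -/
def TV (A B : Alg H) (ξ : H) (g r : Op H) : Prop := Half A B ξ g r ∧ Half B A ξ r g

theorem TV.symm {A B : Alg H} {ξ : H} {g r : Op H} (h : TV A B ξ g r) : TV B A ξ r g := ⟨h.2, h.1⟩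

/-- `Z` is small on the vectors `a ξ`, `a` in the corner. -/
def Sm (A : Alg H) (g : Op H) (ξ : H) (Z : Op H) (t : ℝ) : Prop :=
  ∀ a, Cor A g a → ‖Z (a ξ)‖ ≤ t * ‖a‖

/-- The corners `g A g` and `p D p` almost commute at `ξ`. -/
def Cm (A D : Alg H) (ξ : H) (g p : Op H) (γ : ℝ) : Prop :=
  ∀ x y, Cor A g x → Cor D p y → ‖(x * y - y * x) ξ‖ ≤ γ * ‖x‖ * ‖y‖

/-- One side of the state of the iteration. -/
structure Side (A D : Alg H) (ξ : H) (g r p : Op H) (κ γ : ℝ) : Prop where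
  proj : IsStarProjection p
  mem : p ∈ D
  near : ‖p - r‖ ≤ κ
  supp : ‖p ξ - ξ‖ ≤ γ
  comm : Cm A D ξ g p γ

/-- Elements of `p D p` have partners in `r B r`. -/
def Part (A B D : Alg H) (ξ : H) (g r p : Op H) (κ γ : ℝ) : Prop :=
  ∀ y, Cor D p y → ∃ c, Cor B r c ∧ ‖y - c‖ ≤ κ * ‖y‖ ∧ Sm A g ξ (y - c) (γ * ‖y‖) ∧
    Sm A g ξ (star (y - c)) (γ * ‖y‖)

/-- The double commutator `[[T, x], c]`. -/
def dd (T x c : Op H) : Op H := (T * x - x * T) * c - c * (T * x - x * T)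

/-- Commutators are approximately given by double commutators with `T`. -/
def Cob (A B D : Alg H) (ξ : H) (g r p T : Op H) (η C γ : ℝ) : Prop :=
  ∀ x y c, Cor A g x → Cor D p y → Cor B r c →
    ‖(x * y - y * x - dd T x c) ξ‖ ≤ γ * ‖x‖ * (η * ‖c‖ + C * ‖y - c‖)

/-- The algebra `U* A U`. -/
noncomputable def cj (U : unitary (Op H)) (A : Alg H) : Alg H :=
  A.comap (StarAlgHomClass.toStarAlgHom (Unitary.conjStarAlgAut ℂ (Op H) U))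

theorem mem_cj {U : unitary (Op H)} {A : Alg H} {y : Op H} :
    y ∈ cj U A ↔ (U : Op H) * y * star (U : Op H) ∈ A := Iff.rfl

/-- The state of the iteration. -/
structure St (A B N D : Alg H) (ξ : H) (g r q p : Op H) (δ γ : ℝ) : Prop where
  tv : TV A B ξ g r
  norm : ‖ξ‖ ≤ 1
  right : Side A D ξ g r p (12 * δ) γ
  left : Side B N ξ r g q (12 * δ) γ

/-- Finite projections. -/
def Fin' (A : Alg H) (q : Op H) : Prop :=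
  ∀ v ∈ A, star v * v = q → q * v = v → v * star v = q

/-- The corner `g A g` is moved into `N` by a unitary near the identity. -/
def Good (A N : Alg H) (ε : ℝ) (g u : Op H) : Prop :=
  IsStarProjection g ∧ g ∈ A ∧ g ≠ 0 ∧ u ∈ unitary (Op H) ∧ ‖u - 1‖ ≤ ε ∧
    ∀ a, Cor A g a → u * a * star u ∈ N

end Defs

/-- Commuting left and right actions with a central vector. -/
structure Bim (A : Type u) [CStarAlgebra A] (H : Type u) [NormedAddCommGroup H]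
    [InnerProductSpace ℂ H] [CompleteSpace H] where
  l : A →⋆ₐ[ℂ] Op H
  r : A →ₗ[ℂ] Op H
  r_mul : ∀ a b, r (a * b) = r b * r a
  r_one : r 1 = 1
  r_star : ∀ a, r (star a) = star (r a)
  r_norm : ∀ a, ‖r a‖ ≤ ‖a‖
  comm : ∀ a b, l a * r b = r b * l a
  Ω : H
  cen : ∀ a, l a Ω = r a Ω
  liftL : ∀ a, ∃ a', l a' Ω = l a Ω ∧ ‖a'‖ ≤ ‖l a‖
  liftR : ∀ a, ∃ a', l a' Ω = l a Ω ∧ ‖a'‖ ≤ ‖r a‖

section BimDefs

variable {A : Type u} [CStarAlgebra A] {H : Type u} [NormedAddCommGroup H]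
  [InnerProductSpace ℂ H] [CompleteSpace H]

def Bim.Small (b : Bim A H) (Z : Op H) (t : ℝ) : Prop := ∀ a, ‖Z (b.l a b.Ω)‖ ≤ t * ‖a‖

/-- The algebra `D` is close to the range of `π`. -/
structure Bim.Approx (b : Bim A H) (π : A → Op H) (D : Alg H) (κ γ : ℝ) : Prop where
  one : ∀ c, ∃ y ∈ D, ‖y - π c‖ ≤ κ * ‖c‖
  two : ∀ y ∈ D, ∃ c, ‖y - π c‖ ≤ κ * ‖y‖ ∧ b.Small (y - π c) (γ * ‖y‖) ∧
    b.Small (star (y - π c)) (γ * ‖y‖)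

/-- The corrected commutator cocycle. -/
noncomputable def Bim.psi (b : Bim A H) (y : A → Op H) (T : Op H) (x c : A) : H :=
  (b.l x * y c - y c * b.l x - dd T (b.l x) (b.r c)) b.Ω

/-- Approximate bilinear two-cocycles. -/
structure Bim.ACoc (b : Bim A H) (ψ : A → A → H) (Γ ε : ℝ) : Prop where
  lin : ∀ c, IsLinearMap ℂ fun x => ψ x c
  bd : ∀ x c, ‖ψ x c‖ ≤ Γ * ‖x‖ * ‖c‖
  add : ∀ x c c', ‖ψ x (c + c') - ψ x c - ψ x c'‖ ≤ ε * ‖x‖ * (‖c‖ + ‖c'‖)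
  smul : ∀ x (α : ℂ) c, ‖ψ x (α • c) - α • ψ x c‖ ≤ ε * ‖x‖ * (‖α‖ * ‖c‖)
  coc : ∀ x y z, ‖ψ (x * y) z - b.l x (ψ y z) - ψ x (y * z) + b.r z (ψ x y)‖ ≤
    ε * ‖x‖ * ‖y‖ * ‖z‖
  one_left : ∀ c, ψ 1 c = 0
  one_right : ∀ x, ‖ψ x 1‖ ≤ ε * ‖x‖

/-- Normalization with respect to a finitely supported law on unitaries. -/
structure Bim.Nrm (b : Bim A H) (ψ : A → A → H) {ι : Type u} [Fintype ι] (q : ι → ℝ)
    (v : ι → unitary A) (ε : ℝ) : Prop where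
  left : ∀ c, ‖∑ i, (q i : ℂ) • b.l (star (v i : A)) (ψ (v i) c)‖ ≤ ε * ‖c‖
  right : ∀ x, ‖∑ i, (q i : ℂ) • b.r (star (v i : A)) (ψ x (v i))‖ ≤ ε * ‖x‖

def tri (x z : unitary A) : Fin 3 → unitary A := ![star x, 1, z]

noncomputable def lawW {α : Type u} (w : α → ℝ) (t : α × Fin 3 × Fin 3) : ℝ :=
  if t.2.1 = t.2.2 then 0 else w t.1 / 6

def lawU {α : Type u} (x z : α → unitary A) (t : α × Fin 3 × Fin 3) : unitary A :=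
  star (tri (x t.1) (z t.1) t.2.1) * tri (x t.1) (z t.1) t.2.2

end BimDefs

/-- General tools. -/
structure Tools : Prop where
  spec : ∀ {H : Type u} [NormedAddCommGroup H] [InnerProductSpace ℂ H] [CompleteSpace H]
    (z : Op H) (t : ℝ), 0 < t → ∃ e : Op H, IsStarProjection e ∧
      (∀ y, y * (star z * z) = star z * z * y → y * e = e * y) ∧
      (∀ y, z * y = 0 → e * y = 0) ∧ (∀ η, t * ‖e η‖ ≤ ‖z (e η)‖) ∧ ‖z * (1 - e)‖ ≤ t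
  nearP : ∀ {H : Type u} [NormedAddCommGroup H] [InnerProductSpace ℂ H] [CompleteSpace H]
    (h q : Op H) (t : ℝ), star h = h → IsStarProjection q → ‖h - q‖ ≤ t → t ≤ 1 / 10 →
      ∃ p : Op H, IsStarProjection p ∧ ‖p - q‖ ≤ 9 * t ∧ (∀ y, y * h = h * y → y * p = p * y) ∧
        ∀ y, h * y = 0 → p * y = 0
  nearA : ∀ {H : Type u} [NormedAddCommGroup H] [InnerProductSpace ℂ H] [CompleteSpace H]
    {B N D : Alg H}, CP N D → ∀ (q p : Op H) (δ t : ℝ), IsStarProjection q → q ∈ B →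
      IsStarProjection p → p ∈ D → Near B D δ → 0 ≤ δ → ‖(1 - p) * q‖ ≤ t → δ + 2 * t ≤ 1 / 10 →
      ∃ p', IsStarProjection p' ∧ Cor D p p' ∧ ‖p' - q‖ ≤ 9 * (δ + 2 * t)
  sqrt : ∀ {H : Type u} [NormedAddCommGroup H] [InnerProductSpace ℂ H] [CompleteSpace H]
    (h : Op H), star h = h → ‖h - 1‖ ≤ 1 / 2 → ∃ b k : Op H, star b = b ∧ b * h * b = 1 ∧
      ‖b‖ ≤ 2 ∧ ‖k‖ ≤ 2 ∧ b - 1 = k * (1 - h) ∧
      ∀ y, y * h = h * y → y * b = b * y ∧ y * k = k * y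
  polar : ∀ {H : Type u} [NormedAddCommGroup H] [InnerProductSpace ℂ H] [CompleteSpace H]
    (X : Op H) (t : ℝ), ‖X - 1‖ ≤ t → t ≤ 1 / 10 → ∃ b : Op H, b * X ∈ unitary (Op H) ∧
      star b = b ∧ ‖b * X - 1‖ ≤ 8 * t ∧ ∀ y, y * (X * star X) = X * star X * y → y * b = b * y
  ulim : ∀ {H : Type u} [NormedAddCommGroup H] [InnerProductSpace ℂ H] [CompleteSpace H]
    {α : Type u} (l : Ultrafilter α) (T : α → Op H) (C : ℝ), (∀ a, ‖T a‖ ≤ C) →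
      ∃ S : Op H, ∀ ξ η, Tendsto (fun a => ⟪η, T a ξ⟫_ℂ) l (𝓝 ⟪η, S ξ⟫_ℂ)
  ulimN : ∀ {H : Type u} [NormedAddCommGroup H] [InnerProductSpace ℂ H] [CompleteSpace H]
    (l : Ultrafilter ℕ) (T : ℕ → Op H) (C : ℝ), (∀ a, ‖T a‖ ≤ C) →
      ∃ S : Op H, ∀ ξ η, Tendsto (fun a => ⟪η, T a ξ⟫_ℂ) l (𝓝 ⟪η, S ξ⟫_ℂ)
  supp : ∀ {H : Type u} [NormedAddCommGroup H] [InnerProductSpace ℂ H] [CompleteSpace H]
    (X : Set H), ∃ e : Op H, IsStarProjection e ∧ (∀ η ∈ X, e η = η) ∧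
      (∀ η, e η ∈ closure (Submodule.span ℂ X : Set H)) ∧
      ∀ c : Op H, (∀ η ∈ X, c η ∈ X) → (∀ η ∈ X, star c η ∈ X) → c * e = e * c
  decr : ∀ {H : Type u} [NormedAddCommGroup H] [InnerProductSpace ℂ H] [CompleteSpace H]
    {A B : Alg H}, CP A B → ∀ (p : ℕ → Op H), (∀ n, IsStarProjection (p n)) → (∀ n, p n ∈ A) →
      (∀ n, p n * p (n + 1) = p (n + 1)) → ∃ e ∈ A, IsStarProjection e ∧ (∀ n, p n * e = e) ∧
        ∀ η, Tendsto (fun n => p n η) atTop (𝓝 (e η))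
  pi : ∀ {H : Type u} [NormedAddCommGroup H] [InnerProductSpace ℂ H] [CompleteSpace H]
    {A B : Alg H}, CP A B → ∀ x ∈ A, x ≠ 0 → ∃ w ∈ A, w ≠ 0 ∧ w * star w * w = w ∧
      (∃ a, w = x * a) ∧ ∃ a, w = a * x
  eqc : ∀ {E : Type u} [NormedAddCommGroup E] [NormedSpace ℂ E] (S T : Submodule ℂ E) (t : ℝ),
    IsClosed (S : Set E) → S ≤ T → t < 1 → (∀ b ∈ T, ∃ a ∈ S, ‖b - a‖ ≤ t * ‖b‖) → T ≤ S
  closed : ∀ {H : Type u} [NormedAddCommGroup H] [InnerProductSpace ℂ H] [CompleteSpace H]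
    {A B : Alg H}, CP A B → IsClosed (A : Set (Op H))
  cjCP : ∀ {H : Type u} [NormedAddCommGroup H] [InnerProductSpace ℂ H] [CompleteSpace H]
    {A B : Alg H} (U : unitary (Op H)), CP A B → CP (cj U A) (cj U B)
  cjClose : ∀ {H : Type u} [NormedAddCommGroup H] [InnerProductSpace ℂ H] [CompleteSpace H]
    {A N : Alg H} (U : unitary (Op H)) (δ : ℝ), Close A N δ → 0 ≤ δ → δ ≤ 1 →
      Close A (cj U N) (δ + 4 * ‖(U : Op H) - 1‖)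
  trace : ∀ {H : Type u} [NormedAddCommGroup H] [InnerProductSpace ℂ H] [CompleteSpace H]
    {A B : Alg H} {ξ : H} {g r : Op H}, CP A B → TV A B ξ g r → ∀ a, Cor A g a →
      ‖star a ξ‖ = ‖a ξ‖
  sep : ∀ {H : Type u} [NormedAddCommGroup H] [InnerProductSpace ℂ H] [CompleteSpace H]
    {A B : Alg H} {ξ : H} {g r : Op H}, CP A B → TV A B ξ g r → ∀ a ∈ A, a ξ = 0 → a * g = 0
  smSwap : ∀ {H : Type u} [NormedAddCommGroup H] [InnerProductSpace ℂ H] [CompleteSpace H]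
    {A B : Alg H} {ξ : H} {g r Z : Op H} {t : ℝ}, TV A B ξ g r → 0 ≤ t → Sm A g ξ Z t →
      Sm B r ξ Z t
  partP : ∀ {H : Type u} [NormedAddCommGroup H] [InnerProductSpace ℂ H] [CompleteSpace H]
    {A B : Alg H} {ξ : H} {g r : Op H}, CP A B → TV A B ξ g r → ∀ e, IsStarProjection e →
      Cor A g e → ∃ f, IsStarProjection f ∧ Cor B r f ∧ f ξ = e ξ
  tvCut : ∀ {H : Type u} [NormedAddCommGroup H] [InnerProductSpace ℂ H] [CompleteSpace H]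
    {A B : Alg H} {ξ : H} {g r : Op H}, CP A B → TV A B ξ g r → ∀ e f, IsStarProjection e →
      Cor A g e → IsStarProjection f → Cor B r f → e ξ = f ξ → TV A B (e ξ) e f
  tvMove : ∀ {H : Type u} [NormedAddCommGroup H] [InnerProductSpace ℂ H] [CompleteSpace H]
    {A B : Alg H} {ξ : H} {g r : Op H}, CP A B → TV A B ξ g r → ∀ s ∈ B, star s * s = r →
      TV A B (s ξ) g (s * star s)

/-- Almost intertwiners are close to intertwiners. -/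
def HyperStmt : Prop := ∃ K : ℝ, 1 ≤ K ∧ ∀ (A : Type u) [CStarAlgebra A]
  (H₁ : Type u) [NormedAddCommGroup H₁] [InnerProductSpace ℂ H₁] [CompleteSpace H₁]
  (H₂ : Type u) [NormedAddCommGroup H₂] [InnerProductSpace ℂ H₂] [CompleteSpace H₂]
  (π₁ : A →⋆ₐ[ℂ] Op H₁) (π₂ : A →⋆ₐ[ℂ] Op H₂) (T : H₂ →L[ℂ] H₁) (ε : ℝ), 0 ≤ ε →
  (∀ a, ‖π₁ a ∘L T - T ∘L π₂ a‖ ≤ ε * ‖a‖) →
  ∃ T' : H₂ →L[ℂ] H₁, (∀ a, π₁ a ∘L T' = T' ∘L π₂ a) ∧ ‖T - T'‖ ≤ K * ε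

/-- Commutants of close algebras are close. -/
def CommStmt : Prop := ∃ K : ℝ, 1 ≤ K ∧ ∀ (H : Type u) [NormedAddCommGroup H]
  [InnerProductSpace ℂ H] [CompleteSpace H] (A B N D : Alg H) (δ : ℝ), CP A B → CP N D → 0 ≤ δ →
  Close A N δ → Close B D (K * δ)

/-- Normalized bounded cocycles are alternating. -/
def QStmt : Prop := ∀ η : ℝ, 0 < η → ∃ c : ℝ, 0 ≤ c ∧ ∀ (G : Type u) [Group G]
  (V : Type u) [NormedAddCommGroup V] [InnerProductSpace ℂ V] (L R : G → V →L[ℂ] V)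
  (ψ : G → G → V) (Γ ε : ℝ) (ι : Type u) [Fintype ι] (p : ι → ℝ) (s : ι → G),
  L 1 = 1 → R 1 = 1 → (∀ x y, L (x * y) = L x * L y) → (∀ x y, R (x * y) = R y * R x) →
  (∀ x y, L x * R y = R y * L x) → (∀ x v, ‖L x v‖ = ‖v‖) → (∀ x v, ‖R x v‖ = ‖v‖) →
  0 ≤ Γ → 0 ≤ ε → (∀ x y, ‖ψ x y‖ ≤ Γ) →
  (∀ x y z, ‖ψ (x * y) z - L x (ψ y z) - ψ x (y * z) + R z (ψ x y)‖ ≤ ε) →
  (∀ x, ‖ψ 1 x‖ ≤ ε) → (∀ x, ‖ψ x 1‖ ≤ ε) →
  (∀ i, 0 ≤ p i) → ∑ i, p i = 1 → (∀ i, s i * s i = 1) →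
  (∀ z, ‖∑ i, (p i : ℂ) • L (s i) (ψ (s i) z)‖ ≤ ε) →
  (∀ x, ‖∑ i, (p i : ℂ) • R (s i) (ψ x (s i))‖ ≤ ε) →
  ∑ i, p i * ‖ψ (s i) (s i)‖ ^ 2 ≤ η * Γ ^ 2 + c * ε ^ 2

/-- Normalized bilinear cocycles are small. -/
def Q3Stmt : Prop := ∀ η : ℝ, 0 < η → ∃ c : ℝ, 0 ≤ c ∧ ∀ (A : Type u) [CStarAlgebra A]
  (H : Type u) [NormedAddCommGroup H] [InnerProductSpace ℂ H] [CompleteSpace H] (b : Bim A H)
  (ψ : A → A → H) (Γ ε : ℝ) (α : Type u) [Fintype α] (w : α → ℝ) (x z : α → unitary A),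
  0 ≤ Γ → 0 ≤ ε → b.ACoc ψ Γ ε → (∀ a, 0 ≤ w a) → ∑ a, w a = 1 →
  b.Nrm ψ (lawW w) (lawU x z) ε →
  ∑ a, w a * ‖ψ (x a) (z a)‖ ^ 2 ≤ η * Γ ^ 2 + c * ε ^ 2

/-- Normalization by averaging. -/
def NormStmt : Prop := ∃ C : ℝ, 1 ≤ C ∧ ∀ (A : Type u) [CStarAlgebra A]
  (H : Type u) [NormedAddCommGroup H] [InnerProductSpace ℂ H] [CompleteSpace H] (b : Bim A H)
  (N D : Alg H) (κ γ : ℝ) (y : A → Op H) (ι : Type u) [Fintype ι] (q : ι → ℝ)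
  (v : ι → unitary A) (K : ℕ), (∀ n ∈ N, ∀ d ∈ D, n * d = d * n) → 0 ≤ κ → κ ≤ 1 → 0 ≤ γ →
  b.Approx b.l N κ γ → b.Approx b.r D κ γ → (∀ c, y c ∈ D) → (∀ c, ‖y c - b.r c‖ ≤ κ * ‖c‖) →
  (∀ i, 0 ≤ q i) → ∑ i, q i = 1 → 0 < K →
  ∃ T : Op H, star T = -T ∧ ‖T‖ ≤ C * κ ∧ b.Small T (C * γ) ∧
    b.Nrm (b.psi y T) q v (C * (κ * γ + γ / K))

/-- The cocycle properties. -/
def CocStmt : Prop := ∃ C : ℝ, 1 ≤ C ∧ ∀ (A : Type u) [CStarAlgebra A]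
  (H : Type u) [NormedAddCommGroup H] [InnerProductSpace ℂ H] [CompleteSpace H] (b : Bim A H)
  (D : Alg H) (κ γ t : ℝ) (y : A → Op H) (T : Op H), 0 ≤ κ → κ ≤ 1 → 0 ≤ γ → 0 ≤ t →
  b.Approx b.r D κ γ → (∀ c, y c ∈ D) → (∀ c, ‖y c - b.r c‖ ≤ κ * ‖c‖) → b.Small T t →
  b.ACoc (b.psi y T) (C * (γ + t)) (C * (κ * γ))

/-- The linearized problem is approximately solvable. -/
def BStmt : Prop := ∃ C : ℝ, 1 ≤ C ∧ ∀ η : ℝ, 0 < η → ∃ κ₀ : ℝ, 0 < κ₀ ∧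
  ∀ (A : Type u) [CStarAlgebra A]
  (H : Type u) [NormedAddCommGroup H] [InnerProductSpace ℂ H] [CompleteSpace H] (b : Bim A H)
  (N D : Alg H) (κ γ : ℝ), (∀ n ∈ N, ∀ d ∈ D, n * d = d * n) → 0 ≤ κ → κ ≤ κ₀ → 0 ≤ γ →
  b.Approx b.l N κ γ → b.Approx b.r D κ γ →
  ∃ T : Op H, star T = -T ∧ ‖T‖ ≤ C * κ ∧ b.Small T (C * γ) ∧
    (∀ x c, ∀ y ∈ D, ‖(b.l x * y - y * b.l x - dd T (b.l x) (b.r c)) b.Ω‖ ≤
      γ * ‖x‖ * (η * ‖c‖ + C * ‖y - b.r c‖)) ∧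
    ∀ c x, ∀ n ∈ N, ‖(b.r c * n - n * b.r c - dd T (b.r c) (b.l x)) b.Ω‖ ≤
      γ * ‖c‖ * (η * ‖x‖ + C * ‖n - b.l x‖)

/-- Truncation of almost bounded vectors. -/
def TruncStmt : Prop := ∀ (H : Type u) [NormedAddCommGroup H] [InnerProductSpace ℂ H]
  [CompleteSpace H] (A B : Alg H) (ξ : H) (g r : Op H) (η : H) (δ γ : ℝ), CP A B →
  TV A B ξ g r → 0 < δ → 0 < γ →
  (∀ e, IsStarProjection e → Cor A g e → ‖e η‖ ≤ δ * ‖e ξ‖ + γ) →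
  ∃ m ∈ B, m * r = m ∧ ‖m‖ ≤ 2 * δ ∧ ‖g η - m ξ‖ ≤ 5 * γ

/-- The adjoint lemma. -/
def KStmt : Prop := ∀ (H : Type u) [NormedAddCommGroup H] [InnerProductSpace ℂ H]
  [CompleteSpace H] (A B : Alg H) (ξ : H) (r k Z₁ Z₂ : Op H) (γ : ℝ), CP A B → 0 ≤ γ →
  IsStarProjection r → r ∈ B → r ξ = ξ → Cor B r k → Sm B r ξ Z₁ γ → Sm B r ξ Z₂ γ →
  (∀ c c', Cor B r c → Cor B r c' →
    ⟪c ξ, k (c' ξ)⟫_ℂ = ⟪Z₁ (c ξ), c' ξ⟫_ℂ + ⟪c ξ, Z₂ (c' ξ)⟫_ℂ) → ‖k ξ‖ ≤ 3 * γ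

/-- Cutting down makes small operators small in norm. -/
def CutStmt : Prop := ∃ C : ℝ, 1 ≤ C ∧ ∀ (H : Type u) [NormedAddCommGroup H]
  [InnerProductSpace ℂ H] [CompleteSpace H] (A B : Alg H) (ξ : H) (g r T : Op H) (Γ θ : ℝ),
  CP A B → TV A B ξ g r → 0 ≤ Γ → 0 < θ → Sm A g ξ T Γ →
  ∃ e f, IsStarProjection e ∧ Cor A g e ∧ IsStarProjection f ∧ Cor B r f ∧ e ξ = f ξ ∧
    ‖ξ - e ξ‖ ≤ C * Γ / θ ∧ ‖T * (e * f)‖ ≤ θ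

/-- Existence of partners. -/
def PartStmt : Prop := ∃ C : ℝ, 1 ≤ C ∧ ∀ (H : Type u) [NormedAddCommGroup H]
  [InnerProductSpace ℂ H] [CompleteSpace H] (A B D : Alg H) (ξ : H) (g r p : Op H) (δ κ γ : ℝ),
  CP A B → TV A B ξ g r → Near D B δ → 0 < δ → δ ≤ κ → κ ≤ 1 / 10 → 0 < γ →
  Side A D ξ g r p κ γ → Part A B D ξ g r p (C * κ) (C * γ)

/-- The linearized problem in the setting of the iteration. -/
def ApplyStmt : Prop := ∃ C : ℝ, 1 ≤ C ∧ ∀ η : ℝ, 0 < η → ∃ κ₀ : ℝ, 0 < κ₀ ∧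
  ∀ (H : Type u) [NormedAddCommGroup H] [InnerProductSpace ℂ H] [CompleteSpace H]
  (A B N D : Alg H) (ξ : H) (g r q p : Op H) (κ γ : ℝ), CP A B → CP N D → TV A B ξ g r →
  0 ≤ κ → κ ≤ κ₀ → 0 ≤ γ → Close A N κ → Close B D κ → Side A D ξ g r p κ γ →
  Side B N ξ r g q κ γ → Part A B D ξ g r p κ γ → Part B A N ξ r g q κ γ →
  ∃ T : Op H, star T = -T ∧ ‖T‖ ≤ C * κ ∧ Sm A g ξ T (C * γ) ∧ Cob A B D ξ g r p T η C γ ∧
    Cob B A N ξ r g q T η C γ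

/-- The correcting unitary. -/
def UniStmt : Prop := ∃ C : ℝ, 1 ≤ C ∧ ∀ (H : Type u) [NormedAddCommGroup H]
  [InnerProductSpace ℂ H] [CompleteSpace H] (A B : Alg H) (ξ : H) (g r e f T : Op H)
  (κ γ θ : ℝ), CP A B → TV A B ξ g r → IsStarProjection e → Cor A g e → IsStarProjection f →
  Cor B r f → star T = -T → ‖T‖ ≤ κ → κ ≤ 1 / 10 → 0 ≤ γ → Sm A g ξ T γ → ‖T * (e * f)‖ ≤ θ →
  ∃ (S : Op H) (W : unitary (Op H)), S * (e * f) = -T * (e * f) ∧ ‖S‖ ≤ C * κ ∧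
    Sm A g ξ S (C * γ) ∧ ‖(W : Op H) - 1‖ ≤ C * κ ∧ ‖(W : Op H) - 1‖ ≤ C * θ ∧
    Sm A g ξ ((W : Op H) - 1 - S) (C * (κ * γ)) ∧
    Sm A g ξ (star (W : Op H) - 1 + S) (C * (κ * γ))

/-- One side after cutting and conjugating. -/
def PreStmt : Prop := ∃ C : ℝ, 1 ≤ C ∧ ∀ (H : Type u) [NormedAddCommGroup H]
  [InnerProductSpace ℂ H] [CompleteSpace H] (A B N D : Alg H) (ξ : H) (g r p e f T S : Op H)
  (W : unitary (Op H)) (κ γ η C₀ μ : ℝ), CP A B → CP N D → TV A B ξ g r → 0 ≤ κ →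
  κ ≤ 1 / 1000 → 0 ≤ γ → 0 ≤ η → 1 ≤ C₀ → Side A D ξ g r p κ γ → Part A B D ξ g r p κ γ →
  Cob A B D ξ g r p T η C₀ γ → IsStarProjection e → Cor A g e → IsStarProjection f → Cor B r f →
  e ξ = f ξ → ‖ξ - e ξ‖ ≤ μ → S * (e * f) = -T * (e * f) → ‖S‖ ≤ κ → Sm A g ξ S γ →
  ‖(W : Op H) - 1‖ ≤ κ → Sm A g ξ ((W : Op H) - 1 - S) (κ * γ) →
  Sm A g ξ (star (W : Op H) - 1 + S) (κ * γ) → Near B (cj W D) κ →
  ∃ p', IsStarProjection p' ∧ Cor (cj W D) (star (W : Op H) * p * W) p' ∧ ‖p' - f‖ ≤ C * κ ∧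
    ‖p' (e ξ) - e ξ‖ ≤ C * (γ + μ) ∧ Cm A (cj W D) (e ξ) e p' (C * (η + C₀ * κ) * γ) ∧
    ∀ y, Cor (cj W D) p' y → ∃ c, Cor B r c ∧ ‖y - c‖ ≤ C * κ * ‖y‖ ∧
      Sm A g ξ (y - c) (C * γ * ‖y‖)

/-- Adjusting the vector on one side. -/
def AdjStmt : Prop := ∃ C : ℝ, 1 ≤ C ∧ ∀ (H : Type u) [NormedAddCommGroup H]
  [InnerProductSpace ℂ H] [CompleteSpace H] (A B D : Alg H) (ξ : H) (g r p : Op H) (δ κ γ : ℝ),
  CP A B → TV A B ξ g r → Near D B δ → 0 < δ → δ ≤ κ → κ ≤ 1 / 100 → 0 < γ →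
  IsStarProjection p → p ∈ D → ‖p - r‖ ≤ κ → Cm A D ξ g p γ →
  ∃ s ∈ B, star s * s = r ∧ ‖s - r‖ ≤ C * κ ∧ Side A D (s ξ) g (s * star s) p (12 * δ) (C * γ) ∧
    ‖s ξ - ξ‖ ≤ C * (‖p ξ - ξ‖ + γ) ∧ ∃ b, Cor A g b ∧ ‖b‖ ≤ 2 ∧ ‖s ξ - b (p ξ)‖ ≤ C * γ

/-- Transfer of the other side. -/
def TransStmt : Prop := ∀ (H : Type u) [NormedAddCommGroup H] [InnerProductSpace ℂ H]
  [CompleteSpace H] (A B N : Alg H) (ξ : H) (g r q s : Op H) (γ α β : ℝ), CP A B →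
  TV A B ξ g r → s ∈ B → star s * s = r → 0 ≤ γ → 0 ≤ α → 0 ≤ β → Cm B N ξ r q γ →
  (∀ n, Cor N q n → ∃ a ∈ A, ∀ c, Cor B r c → ‖(n - a) (c ξ)‖ ≤ α * ‖n‖ * ‖c‖ ∧
    ‖(n - a) ((s - r) (c ξ))‖ ≤ β * ‖n‖ * ‖c‖) →
  Cm B N (s ξ) (s * star s) q (3 * γ + 2 * β + 2 * ‖s - r‖ * α) ∧
    ∀ n, Cor N q n → ‖(s * n - n * s) ξ‖ ≤ (γ + β + ‖s - r‖ * α) * ‖n‖

/-- One step of the iteration. -/
def StepStmt : Prop := ∃ C δ₀ : ℝ, 1 ≤ C ∧ 0 < δ₀ ∧ ∀ (H : Type u) [NormedAddCommGroup H]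
  [InnerProductSpace ℂ H] [CompleteSpace H] (A B N D : Alg H) (ξ : H) (g r q p : Op H)
  (δ₁ δ γ : ℝ), CP A B → CP N D → Close A N δ₁ → Close B D δ₁ → 0 ≤ δ₁ → 0 < γ →
  δ₁ + 4 * C * √γ ≤ δ → δ ≤ δ₀ → St A B N D ξ g r q p δ γ →
  ∃ (W : unitary (Op H)) (ξ' : H) (g' r' q' p' : Op H), ‖(W : Op H) - 1‖ ≤ C * √γ ∧
    St A B (cj W N) (cj W D) ξ' g' r' q' p' δ (γ / 4) ∧ star (W : Op H) * q * W * q' = q' ∧
    ‖ξ' - ξ‖ ≤ C * √γ ∧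
    ∃ t ∈ A, ∃ s ∈ B, ‖s‖ ≤ 1 ∧ t * g = t ∧ t * star t = g' ∧ s ξ' = t ξ

/-- The limit of the iteration. -/
def RelStmt : Prop := ∀ ε : ℝ, 0 < ε → ∃ δ₀ : ℝ, 0 < δ₀ ∧ ∀ (H : Type u) [NormedAddCommGroup H]
  [InnerProductSpace ℂ H] [CompleteSpace H] (A B N D : Alg H) (Ω : H) (e f : Op H) (δ : ℝ),
  CP A B → CP N D → Close A N δ → Close B D δ → 0 < δ → δ ≤ δ₀ → TV A B Ω e f → ‖Ω‖ = 1 →
  ∃ (U : unitary (Op H)) (g q : Op H) (ζ : H), ‖(U : Op H) - 1‖ ≤ ε ∧ IsStarProjection g ∧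
    g ∈ A ∧ g ≠ 0 ∧ ‖g * (1 - e)‖ ≤ 1 / 2 ∧ IsStarProjection q ∧ q ∈ cj U N ∧ ‖q - g‖ ≤ ε ∧
    g ζ = ζ ∧ (∀ a, Cor A g a → a ζ = 0 → a = 0) ∧
    ∀ n, Cor (cj U N) q n → ∃ a, Cor A g a ∧ ‖n - a‖ ≤ ε * ‖n‖ ∧
      ∀ b ∈ A, g * b = b → n (b ζ) = a (b ζ) ∧ star n (b ζ) = star a (b ζ)

/-- From the limiting relation to a unitary. -/
def GoodStmt : Prop := ∀ ε : ℝ, 0 < ε → ∃ δ₀ : ℝ, 0 < δ₀ ∧ ∀ (H : Type u) [NormedAddCommGroup H]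
  [InnerProductSpace ℂ H] [CompleteSpace H] (A B N D : Alg H) (g q : Op H) (ζ : H) (δ : ℝ),
  CP A B → CP N D → Near A N δ → 0 ≤ δ → δ ≤ δ₀ → IsStarProjection g → g ∈ A → g ≠ 0 →
  IsStarProjection q → q ∈ N → ‖q - g‖ ≤ δ → g ζ = ζ → (∀ a, Cor A g a → a ζ = 0 → a = 0) →
  (∀ n, Cor N q n → ∃ a, Cor A g a ∧ ‖n - a‖ ≤ δ * ‖n‖ ∧
    ∀ b ∈ A, g * b = b → n (b ζ) = a (b ζ) ∧ star n (b ζ) = star a (b ζ)) →
  ∃ u, Good A N ε g u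

/-- A faithful trace vector of a corner gives the initial data. -/
def InitStmt : Prop := ∀ (H : Type u) [NormedAddCommGroup H] [InnerProductSpace ℂ H]
  [CompleteSpace H] (A B : Alg H) (Ω : H) (e : Op H), CP A B → IsStarProjection e → e ∈ A →
  e Ω = Ω → (∀ a, Cor A e a → ‖star a Ω‖ = ‖a Ω‖) → (∀ a, Cor A e a → a Ω = 0 → a = 0) →
  ∃ f, TV A B Ω e f

/-- Finite projections majorize corners with a faithful trace vector. -/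
def TraceStmt : Prop := ∀ (H : Type u) [NormedAddCommGroup H] [InnerProductSpace ℂ H]
  [CompleteSpace H] (A B : Alg H) (q : Op H), CP A B → IsStarProjection q → q ∈ A → q ≠ 0 →
  Fin' A q → ∃ (e : Op H) (Ω : H), IsStarProjection e ∧ Cor A q e ∧ e Ω = Ω ∧ ‖Ω‖ = 1 ∧
    (∀ a, Cor A e a → ‖star a Ω‖ = ‖a Ω‖) ∧ ∀ a, Cor A e a → a Ω = 0 → a = 0

/-- Gluing the local unitaries. -/
def GlueStmt : Prop := ∀ ε : ℝ, 0 < ε → ∃ δ₀ : ℝ, 0 < δ₀ ∧ ∀ (H : Type u) [NormedAddCommGroup H]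
  [InnerProductSpace ℂ H] [CompleteSpace H] (A B N D : Alg H) (δ : ℝ), CP A B → CP N D →
  Near N A δ → Near D B δ → 0 ≤ δ → δ ≤ δ₀ →
  (∀ z ∈ A, z ∈ B → IsStarProjection z → z ≠ 0 →
    ∃ g u, Good A N δ g u ∧ ‖g * (1 - z)‖ ≤ 1 / 2) →
  ∃ u ∈ unitary (Op H), ‖u - 1‖ ≤ ε ∧ ∀ x, x ∈ A ↔ u * x * star u ∈ N

end Vale.Agent.P096
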